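import Vale.Agent.P204.Statement
import Vale.Agent.P204.Main

open scoped Manifold ContDiff

namespace Vale.Agent.Results.P204.Donaldson

open Vale.Agent.P204.St

/-- Donaldson's tamed-to-compatible conjecture. -/
theorem result (X : Type*) [TopologicalSpace X] [T2Space X] [CompactSpace X]
    [ChartedSpace (EuclideanSpace ℝ (Fin 4)) X] [IsManifold (𝓡 4) ∞ X]
    (J : EndField (EuclideanSpace ℝ (Fin 4)) X) (hJ : IsAlmostComplex J)
    (h : ∃ α : TwoTensor (EuclideanSpace ℝ (Fin 4)) X, IsSymplectic α ∧ Tames α J) :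
    ∃ α : TwoTensor (EuclideanSpace ℝ (Fin 4)) X, IsSymplectic α ∧ IsCompatible α J :=
  Vale.Agent.P204.donaldson X J hJ h

end Vale.Agent.Results.P204.Donaldson
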